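import Vale.Agent.P286.H273.GauEv
import Vale.Agent.P286.H374.GauF

/-!
# The operators `e t` and the evaluations of `Wk I n` under the gauge transformations
-/

namespace Vale.Agent.P286.H273

open CategoryTheory TensorProduct Matrix Vale.Agent.P286.Gen Vale.Agent.P286.H295
  Vale.Agent.P286.H847 Vale.Agent.P286.H847.GD Vale.Agent.P286.H847.SGD Vale.Agent.P286.H697
  Vale.Agent.P286.H710 Vale.Agent.P286.H987 Vale.Agent.P286.H374

noncomputable section

set_option linter.unusedSectionVars false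

variable {I : Type} [Fintype I] [DecidableEq I] {n : ℕ}

/-- The operators `e t` are odd derivations. -/
theorem isDer_e (t : Fin n) : (Gau.wq I n).IsDer (Wk.e I n t) where
  mul := Wk.e_mul t
  th := Wk.e_th t
  xi u := by
    refine ⟨if t = u then 1 else 0, (Wk.e_xi t u).trans ?_⟩
    split_ifs
    · rw [map_one]
    · rw [map_zero]
  F i j := Wk.e_inP t _
  sg a := by
    have h := Wk.e_sg t a
    rw [eq_neg_iff_add_eq_zero, add_comm] at h
    exact eq_neg_of_add_eq_zero_left h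

section

variable {B : Type} [CommRing B] [Algebra ℂ B] {B' : Type} [CommRing B'] [Algebra ℂ B']
variable {M : OmM B} {M' : OmM B'} {t : M.M.V →ₗ[ℂ] M'.M.V} {U U' : Matrix I I B'}

/-- **`G` commutes with `e u ⊗ 1`.** -/
theorem G_e (u : Fin n) (z : Wk I n ⊗[ℂ] M.M.V) :
    TensorProduct.map (Wk.e I n u) LinearMap.id (Gau.G (Gau.wq I n) M M' t U U' z) =
      Gau.G (Gau.wq I n) M M' t U U' (TensorProduct.map (Wk.e I n u) LinearMap.id z) :=
  Gau.G_der (isDer_e u) z

end

section Lam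

variable {N : ℕ} {Γ : Gps N} [hs : Algebra.Smooth ℂ (Of Γ)] (R : Rpn Γ I)

/-- **The comparison map is compatible with the gauge transformations.** -/
theorem lam_Gwk (F : OmF (BGT Γ)) {X Y : Gen.BGObj Γ} (φ : X ⟶ Y)
    (z : Wk I n ⊗[ℂ] (fib F X).M.V) :
    (lam (R.evU n) (R.sgC_evHom (ug Γ)) F Y).f
        (Gau.G (Gau.wq I n) (fib F X) (fib F Y) (fibt F φ).f (R.r (Gen.BGHom.h φ))
          (R.r (Gen.BGHom.h φ)⁻¹) z) =
      (fibt F (copM φ)).f ((lam (R.evU n) (R.sgC_evHom (ug Γ)) F X).f z) :=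
  lam_G R (Q := Gau.wq I n) (fun _ => rfl) (fun _ _ => rfl) (fun _ => rfl) (fun _ => rfl) F φ z

end Lam

end

end Vale.Agent.P286.H273
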