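import Vale.Agent.P286.H847.WkDef

/-!
# Elementary facts on `Wk`: induction, contractions
-/

namespace Vale.Agent.P286.H273

open TensorProduct Matrix Vale.Agent.P286.H847

noncomputable section

set_option linter.unusedSectionVars false

variable {I : Type} [Fintype I] [DecidableEq I] {n : ℕ}

theorem w_neg_mul (a b : Wk I n) : -a * b = -(a * b) := neg_mul a b

theorem w_mul_neg (a b : Wk I n) : a * -b = -(a * b) := mul_neg a b

theorem w_sub_mul (a b c : Wk I n) : (a - b) * c = a * c - b * c := sub_mul a b c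

theorem w_mul_sub (a b c : Wk I n) : a * (b - c) = a * b - a * c := mul_sub a b c

theorem w_neg_neg (a : Wk I n) : -(-a) = a := neg_neg a

theorem inL_mul_tmul (x l : Lm I n) (p : Pl I) :
    Wk.inL I n x * (l ⊗ₜ[ℂ] p) = (x * l) ⊗ₜ[ℂ] p := by
  rw [Wk.inL, Algebra.TensorProduct.includeLeft_apply, Algebra.TensorProduct.tmul_mul_tmul, one_mul]

theorem inP_mul_tmul (q : Pl I) (l : Lm I n) (p : Pl I) :
    Wk.inP I n q * (l ⊗ₜ[ℂ] p) = l ⊗ₜ[ℂ] (q * p) := by
  rw [Wk.inP, Algebra.TensorProduct.includeRight_apply, Algebra.TensorProduct.tmul_mul_tmul, one_mul]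

theorem inP_comm (q : Pl I) (w : Wk I n) : Wk.inP I n q * w = w * Wk.inP I n q := by
  induction w using TensorProduct.induction_on with
  | zero => simp
  | tmul l p =>
    rw [inP_mul_tmul, Wk.inP, Algebra.TensorProduct.includeRight_apply,
      Algebra.TensorProduct.tmul_mul_tmul, mul_one, mul_comm]
  | add a b ha hb => rw [mul_add, ha, hb, add_mul]

/-- Induction on `Wk`, multiplying by generators on the left. -/
theorem wk_ind {P : Wk I n → Prop} (h1 : P 1) (ha : ∀ x y, P x → P y → P (x + y))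
    (hs : ∀ (c : ℂ) x, P x → P (c • x))
    (hg : ∀ a x, P x → P (Wk.gn I n a * x)) (hp : ∀ s x, P x → P (Wk.inP I n (MvPolynomial.X s) * x))
    (w : Wk I n) : P w := by
  have h0 : P 0 := by simpa using hs 0 1 h1
  have hP : ∀ (q : Pl I) x, P x → P (Wk.inP I n q * x) := by
    intro q
    induction q using MvPolynomial.induction_on with
    | C c =>
      intro x hx
      rw [show (MvPolynomial.C c : Pl I) = algebraMap ℂ _ c from rfl, AlgHom.commutes,
        ← Algebra.smul_def]
      exact hs c x hx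
    | add p q hp' hq' =>
      intro x hx
      rw [map_add, add_mul]
      exact ha _ _ (hp' x hx) (hq' x hx)
    | mul_X p s hp' =>
      intro x hx
      rw [map_mul, mul_assoc]
      exact hp' _ (hp s x hx)
  have hG : ∀ (m : Gn I n → ℂ) x, P x → P (Wk.inL I n (ExteriorAlgebra.ι ℂ m) * x) := by
    intro m x hx
    have hm : m = ∑ a, m a • (Pi.single a 1 : Gn I n → ℂ) := by
      rw [← Finset.univ_sum_single m]
      refine Finset.sum_congr rfl fun a _ => ?_
      rw [← Pi.single_smul]
      simp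
    rw [hm, map_sum, map_sum, Finset.sum_mul]
    refine Finset.sum_induction _ P (fun a b => ha a b) h0 fun a _ => ?_
    rw [map_smul, map_smul, smul_mul_assoc]
    exact hs _ _ (hg a x hx)
  have hL : ∀ (l : Lm I n) x, P x → P (Wk.inL I n l * x) := by
    intro l
    induction l using CliffordAlgebra.left_induction with
    | algebraMap r =>
      intro x hx
      rw [AlgHom.commutes, ← Algebra.smul_def]
      exact hs _ _ hx
    | add a b ha' hb' =>
      intro x hx
      rw [map_add, add_mul]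
      exact ha _ _ (ha' x hx) (hb' x hx)
    | ι_mul l m hl =>
      intro x hx
      rw [map_mul, mul_assoc]
      exact hG m _ (hl x hx)
  induction w using TensorProduct.induction_on with
  | zero => exact h0
  | tmul l p =>
    have e : (l ⊗ₜ[ℂ] p : Wk I n) = Wk.inL I n l * (Wk.inP I n p * 1) := by
      rw [mul_one, Wk.inP, Algebra.TensorProduct.includeRight_apply, inL_mul_tmul, mul_one]
    rw [e]
    exact hL _ _ (hP _ _ h1)
  | add a b ha' hb' => exact ha _ _ ha' hb'

theorem ct_gn_mul (a b : Gn I n) (w : Wk I n) :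
    Wk.ct I n a (Wk.gn I n b * w) = (if a = b then w else 0) - Wk.gn I n b * Wk.ct I n a w := by
  induction w using TensorProduct.induction_on with
  | zero => simp
  | tmul l p =>
    have h : (LinearMap.proj a : (Gn I n → ℂ) →ₗ[ℂ] ℂ) (Pi.single b 1) = if a = b then 1 else 0 := by
      simp [Pi.single_apply]
    rw [Wk.gn, inL_mul_tmul, Wk.ct, LinearMap.rTensor_tmul, LinearMap.rTensor_tmul, inL_mul_tmul]
    have h2 := CliffordAlgebra.contractLeft_ι_mul (Q := (0 : QuadraticForm ℂ (Gn I n → ℂ)))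
      (LinearMap.proj a : (Gn I n → ℂ) →ₗ[ℂ] ℂ) (Pi.single b 1) l
    rw [h] at h2
    have h3 : CliffordAlgebra.contractLeft (LinearMap.proj a : (Gn I n → ℂ) →ₗ[ℂ] ℂ)
        ((ExteriorAlgebra.ι ℂ) (Pi.single b 1) * l) = (if a = b then (1 : ℂ) else 0) • l -
          (ExteriorAlgebra.ι ℂ) (Pi.single b 1) * CliffordAlgebra.contractLeft
            (LinearMap.proj a : (Gn I n → ℂ) →ₗ[ℂ] ℂ) l := h2
    rw [h3, TensorProduct.sub_tmul]
    split_ifs <;> simp
  | add x y hx hy =>
    rw [mul_add, map_add, map_add, mul_add, hx, hy]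
    split_ifs <;> abel

theorem ct_inP_mul (a : Gn I n) (q : Pl I) (w : Wk I n) :
    Wk.ct I n a (Wk.inP I n q * w) = Wk.inP I n q * Wk.ct I n a w := by
  induction w using TensorProduct.induction_on with
  | zero => simp
  | tmul l p =>
    rw [inP_mul_tmul, Wk.ct, LinearMap.rTensor_tmul, LinearMap.rTensor_tmul, inP_mul_tmul]
  | add x y hx hy => rw [mul_add, map_add, map_add, mul_add, hx, hy]

theorem ct_one (a : Gn I n) : Wk.ct I n a 1 = 0 := by
  have h : (1 : Wk I n) = (1 : Lm I n) ⊗ₜ[ℂ] (1 : Pl I) := rfl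
  rw [h, Wk.ct, LinearMap.rTensor_tmul, CliffordAlgebra.contractLeft_one, TensorProduct.zero_tmul]

theorem sg_apply (w : Wk I n) : Wk.sg I n w = Wk.sgA I n w := rfl

theorem sg_mul (x y : Wk I n) : Wk.sg I n (x * y) = Wk.sg I n x * Wk.sg I n y :=
  map_mul (Wk.sgA I n) x y

theorem sg_one : Wk.sg I n 1 = 1 := map_one (Wk.sgA I n)

theorem sg_gn (a : Gn I n) : Wk.sg I n (Wk.gn I n a) = -Wk.gn I n a := by
  rw [sg_apply, Wk.gn, Wk.inL, Algebra.TensorProduct.includeLeft_apply, Wk.sgA,
    Algebra.TensorProduct.map_tmul, map_one]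
  have h : CliffordAlgebra.involute ((ExteriorAlgebra.ι ℂ) (Pi.single a 1 : Gn I n → ℂ)) =
      -(ExteriorAlgebra.ι ℂ) (Pi.single a 1 : Gn I n → ℂ) := CliffordAlgebra.involute_ι _
  rw [h, TensorProduct.neg_tmul]

theorem sg_inP (q : Pl I) : Wk.sg I n (Wk.inP I n q) = Wk.inP I n q := by
  rw [sg_apply, Wk.inP, Algebra.TensorProduct.includeRight_apply, Wk.sgA,
    Algebra.TensorProduct.map_tmul, map_one]
  rfl

theorem ct_sg (a : Gn I n) (w : Wk I n) : Wk.ct I n a (Wk.sg I n w) = -Wk.sg I n (Wk.ct I n a w) := by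
  induction w using wk_ind with
  | h1 => rw [sg_one, ct_one, map_zero, neg_zero]
  | ha x y hx hy => rw [map_add, map_add, map_add, map_add, hx, hy, neg_add]
  | hs c x hx => rw [map_smul, map_smul, map_smul, map_smul, hx, smul_neg]
  | hg b x hx =>
    rw [sg_mul, sg_gn, w_neg_mul, map_neg, ct_gn_mul, ct_gn_mul, map_sub, sg_mul, sg_gn, hx,
      w_mul_neg, w_neg_mul]
    split_ifs
    · rfl
    · rw [map_zero]
  | hp s x hx => rw [sg_mul, sg_inP, ct_inP_mul, ct_inP_mul, sg_mul, sg_inP, hx, w_mul_neg]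

/-- The contraction is an odd derivation. -/
theorem ct_mul (a : Gn I n) (x y : Wk I n) :
    Wk.ct I n a (x * y) = Wk.ct I n a x * y + Wk.sg I n x * Wk.ct I n a y := by
  induction x using wk_ind with
  | h1 => rw [one_mul, ct_one, sg_one, zero_mul, one_mul, zero_add]
  | ha x y hx hy => rw [add_mul, map_add, hx, hy, map_add, map_add, add_mul, add_mul]; abel
  | hs c x hx => rw [smul_mul_assoc, map_smul, hx, map_smul, map_smul, smul_mul_assoc,
      smul_mul_assoc, smul_add]
  | hg b x hx =>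
    rw [mul_assoc, ct_gn_mul, hx, ct_gn_mul, sg_mul, sg_gn, w_sub_mul, mul_add, ite_mul, zero_mul,
      w_neg_mul, w_neg_mul, mul_assoc, mul_assoc]
    abel
  | hp s x hx => rw [mul_assoc, ct_inP_mul, hx, ct_inP_mul, sg_mul, sg_inP, mul_add, mul_assoc,
      mul_assoc]

end

end Vale.Agent.P286.H273
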