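import Vale.Agent.P286.H273.GauX
import Vale.Agent.P286.H987.EvHom

/-!
# The comparison with the value at the coproduct with the point is compatible with the gauge
transformations
-/

namespace Vale.Agent.P286.H273

open CategoryTheory TensorProduct Matrix Vale.Agent.P286.Gen Vale.Agent.P286.H295
  Vale.Agent.P286.H847 Vale.Agent.P286.H847.GD Vale.Agent.P286.H847.SGD Vale.Agent.P286.H697
  Vale.Agent.P286.H710 Vale.Agent.P286.H987 Vale.Agent.P286.H374

noncomputable section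

set_option linter.unusedSectionVars false

variable {I : Type} [Fintype I] [DecidableEq I] {n : ℕ}

section Abstract

variable {y : Fin n → MvPolynomial (I × I) ℂ} {W : Type} [Ring W] [Algebra ℂ W]
  (Q : Gau.WD I n y W)

/-- A homomorphism from `W` to the forms, compatible with the signs. -/
structure IsEv {B : Type} [CommRing B] [Algebra ℂ B] (ε : W →ₐ[ℂ] Om ℂ B)
    (m : Matrix I I (Om ℂ B)) : Prop where
  s : ∀ w, ε (Q.s w) = Om.sg (ε w)
  th : ∀ i j, ε (Q.th i j) = m i j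
  xi : ∀ i, ε (Q.xi i) = 0
  F : ∀ i j, ε (Q.P (MvPolynomial.X (i, j))) = 0

variable {Q} {B : Type} [CommRing B] [Algebra ℂ B] {C : Type} [CommRing C] [Algebra ℂ C]

/-- The action of an evaluation on a module over the forms. -/
theorem act_aU (M : OmM B) (M' : OmM C) {c : B →ₐ[ℂ] C} {t : M.M.V →ₗ[ℂ] M'.M.V}
    (ht : ∀ (w : Om ℂ B) (x : M.M.V), t (w • x) = Om.pb c w • t x)
    {ε ε' : W →ₐ[ℂ] Om ℂ C} {m m' : Matrix I I (Om ℂ C)} {U U' : Matrix I I B}
    (h : IsEv Q ε m) (h' : IsEv Q ε' m')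
    (hm : ∀ i j, m' i j = ∑ k, ∑ l, (c (U' i k) * c (U l j)) • m k l +
      ∑ k, c (U' i k) • (Om.dd (c (U k j)) : Om ℂ C))
    (w : W) (z : W ⊗[ℂ] M.M.V) :
    actL M' ε.toLinearMap t ((Gau.rM Q M).aU U U' w z) =
      ε' w • actL M' ε.toLinearMap t z := by
  refine Gau.Rp.L_aU (Gau.rM Q M) (ε := ε) (c := c) ?_ ?_ ?_ ?_ ?_ ?_ w z
  · intro w z
    induction z using TensorProduct.induction_on with
    | zero => rw [map_zero, map_zero, smul_zero]
    | tmul a x =>
      change ε (w * a) • t x = ε w • (ε a • t x)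
      rw [map_mul, mul_smul]
    | add a b ha hb => rw [map_add, map_add, map_add, ha, hb, smul_add]
  · intro b z
    induction z using TensorProduct.induction_on with
    | zero => rw [map_zero, map_zero, smul_zero]
    | tmul a x =>
      change ε a • t ((algebraMap B (Om ℂ B) b) • x) = algebraMap C (Om ℂ C) (c b) • (ε a • t x)
      rw [ht, Om.pb_alg, smul_smul, smul_smul, Algebra.commutes]
    | add a b ha hb => rw [map_add, map_add, map_add, ha, hb, smul_add]
  · intro b z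
    induction z using TensorProduct.induction_on with
    | zero => rw [map_zero, map_zero, smul_zero]
    | tmul a x =>
      change ε (Q.s a) • t ((Om.dd b : Om ℂ B) • x) = (Om.dd (c b) : Om ℂ C) • (ε a • t x)
      rw [ht, Om.pb_dd, smul_smul, smul_smul, h.s, Om.dd, Om.ι_mul]
    | add a b ha hb => rw [map_add, map_add, map_add, ha, hb, smul_add]
  · intro i j
    rw [h'.th, hm]
    congr 1
    refine Finset.sum_congr rfl fun k _ => Finset.sum_congr rfl fun l _ => ?_
    rw [h.th]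
  · intro i
    rw [h.xi, h'.xi]
  · intro i j
    rw [h'.F]
    refine (Finset.sum_eq_zero fun k _ => Finset.sum_eq_zero fun l _ => ?_).symm
    rw [h.F, smul_zero]

/-- The evaluations and the gauge transformations. -/
theorem act_G {A B A' B' : Type} [CommRing A] [Algebra ℂ A] [CommRing B] [Algebra ℂ B]
    [CommRing A'] [Algebra ℂ A'] [CommRing B'] [Algebra ℂ B']
    {M : OmM A} {N : OmM B} {M' : OmM A'} {N' : OmM B'}
    {t : M.M.V →ₗ[ℂ] N.M.V} {t' : M'.M.V →ₗ[ℂ] N'.M.V} {i : M.M.V →ₗ[ℂ] M'.M.V}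
    {j : N.M.V →ₗ[ℂ] N'.M.V} {c : B →ₐ[ℂ] B'} {c' : A' →ₐ[ℂ] B'}
    (hj : ∀ (w : Om ℂ B) (x : N.M.V), j (w • x) = Om.pb c w • j x)
    (ht : ∀ (w : Om ℂ A') (x : M'.M.V), t' (w • x) = Om.pb c' w • t' x)
    (hc : ∀ x, t' (i x) = j (t x))
    {εM : W →ₐ[ℂ] Om ℂ A'} {εN ε' : W →ₐ[ℂ] Om ℂ B'} {m m' : Matrix I I (Om ℂ B')}
    {U U' : Matrix I I B} (h : IsEv Q εN m) (h' : IsEv Q ε' m') (hp : ∀ w, Om.pb c' (εM w) = ε' w)
    (hm : ∀ i j, m' i j = ∑ k, ∑ l, (c (U' i k) * c (U l j)) • m k l +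
      ∑ k, c (U' i k) • (Om.dd (c (U k j)) : Om ℂ B'))
    (z : W ⊗[ℂ] M.M.V) :
    actL N' εN.toLinearMap j (Gau.G Q M N t U U' z) = t' (actL M' εM.toLinearMap i z) := by
  induction z using TensorProduct.induction_on with
  | zero => rw [map_zero, map_zero, map_zero, map_zero]
  | tmul w x =>
    rw [Gau.G_tmul, act_aU N N' hj h h' hm]
    change ε' w • (εN 1 • j (t x)) = t' (εM w • i x)
    rw [ht, hp, map_one, one_smul, hc]
  | add a b ha hb => rw [map_add, map_add, map_add, map_add, ha, hb]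

end Abstract

section Lam

variable {N : ℕ} {Γ : Gps N} [hs : Algebra.Smooth ℂ (Of Γ)] (R : Rpn Γ I)
  {y : Fin n → MvPolynomial (I × I) ℂ} {Q : Gau.WD I n y (Wk I n)}

/-- The evaluations of `Wk`. -/
theorem isEv_evx (hs : ∀ w, Q.s w = Wk.sg I n w) (hth : ∀ i j, Q.th i j = Wk.th I n i j)
    (hxi : ∀ i, Q.xi i = Wk.xi I n i) (hP : ∀ p, Q.P p = Wk.inP I n p) {B : Type} [CommRing B]
    [Algebra ℂ B] (x : Gr Γ B) :
    IsEv Q (R.evx n x) (Matrix.of fun i j => ExteriorAlgebra.ι B (R.mcx x i j)) where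
  s w := by rw [hs, R.evx_sg]
  th i j := by rw [hth]; exact ev_th _ i j
  xi i := by rw [hxi]; exact R.evx_xi x i
  F i j := by rw [hP]; exact R.evx_Fm x i j

/-- **The comparison map is compatible with the gauge transformations.** -/
theorem lam_G (hs : ∀ w, Q.s w = Wk.sg I n w) (hth : ∀ i j, Q.th i j = Wk.th I n i j)
    (hxi : ∀ i, Q.xi i = Wk.xi I n i) (hP : ∀ p, Q.P p = Wk.inP I n p)
    (F : OmF (BGT Γ)) {X Y : Gen.BGObj Γ} (φ : X ⟶ Y) (z : Wk I n ⊗[ℂ] (fib F X).M.V) :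
    (lam (R.evU n) (R.sgC_evHom (ug Γ)) F Y).f
        (Gau.G Q (fib F X) (fib F Y) (fibt F φ).f (R.r (Gen.BGHom.h φ))
          (R.r (Gen.BGHom.h φ)⁻¹) z) =
      (fibt F (copM φ)).f ((lam (R.evU n) (R.sgC_evHom (ug Γ)) F X).f z) := by
  have h1 : ∀ (X : Gen.BGObj Γ) (z : Wk I n ⊗[ℂ] (fib F X).M.V),
      (lam (R.evU n) (R.sgC_evHom (ug Γ)) F X).f z =
        actL (fib F (cop X)) (R.evx n (cg X)).toLinearMap (fibt F (inl X)).f z := by
    intro X z
    induction z using TensorProduct.induction_on with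
    | zero => rw [map_zero, map_zero]
    | tmul w x =>
      rw [lam_tmul, actL_tmul]
      congr 1
      exact R.pb_evx (cR X) (ug Γ) w
    | add a b ha hb => rw [map_add, map_add, ha, hb]
  rw [h1, h1]
  refine act_G (M := fib F X) (N := fib F Y) (M' := fib F (cop X)) (N' := fib F (cop Y))
    (c := cL Y) (c' := Gen.BGHom.f (copM φ)) (fibt_smul F (inl Y)) (fibt_smul F (copM φ)) ?_
    (isEv_evx R hs hth hxi hP (cg Y)) (isEv_evx R hs hth hxi hP ((gm (cL Y) (Gen.BGHom.h φ))⁻¹ *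
      cg Y)) ?_ ?_ z
  · intro x
    have h2 := (gf F).map_comp (inl X) (copM φ) x
    have h3 := (gf F).map_comp φ (inl Y) x
    rw [inl_copM] at h2
    exact h2.symm.trans h3
  · intro w
    rw [R.pb_evx, gm_copM]
  · intro i j
    rw [Matrix.of_apply, R.mcx_mul, inv_inv, map_add, map_sum]
    congr 1
    · refine Finset.sum_congr rfl fun k _ => ?_
      rw [map_sum]
      refine Finset.sum_congr rfl fun l _ => ?_
      rw [map_smul, ← gm_inv, R.nat, R.nat, Matrix.of_apply]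
      rfl
    · refine (ι_mcI _ _ i j).trans ?_
      refine Finset.sum_congr rfl fun k _ => ?_
      rw [inv_inv, ← gm_inv, R.nat, R.nat]
      rfl

end Lam

end

end Vale.Agent.P286.H273
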