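import Vale.Agent.P286.H374.GauE

/-!
# Gauge transformations, odd derivations and evaluations

`Rp.aU_der`: an operator which is an odd derivation over the algebra `W` and (anti)commutes with
the forms is an odd derivation with respect to the gauge transformations; hence `G` commutes with
`e ⊗ 1` (`G_der`).  `Rp.L_aU`: a linear map which is linear over an evaluation `ε` of `W` is linear
over the gauge transform of `ε`.
-/

namespace Vale.Agent.P286.H374.Gau

open TensorProduct H710 Matrix H697 H847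

noncomputable section

set_option linter.unusedSectionVars false

variable {I : Type} [Fintype I] [DecidableEq I] {n : ℕ} {y : Fin n → MvPolynomial (I × I) ℂ}
variable {W : Type} [Ring W] [Algebra ℂ W]

namespace WD

variable (Q : WD I n y W)

/-- An odd derivation of the algebra, which only sees the generators `ξ`. -/
structure IsDer (e : W →ₗ[ℂ] W) : Prop where
  mul : ∀ a b, e (a * b) = e a * b + Q.s a * e b
  th : ∀ i j, e (Q.th i j) = 0
  xi : ∀ i, ∃ c : ℂ, e (Q.xi i) = algebraMap ℂ W c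
  F : ∀ i j, e (Q.P (MvPolynomial.X (i, j))) = 0
  sg : ∀ a, e (Q.s a) = - Q.s (e a)

variable {Q} {e : W →ₗ[ℂ] W}

theorem IsDer.one (h : Q.IsDer e) : e 1 = 0 := by
  have h1 := h.mul 1 1
  have hs : Q.s 1 = 1 := map_one Q.s
  rw [mul_one, mul_one, hs, one_mul] at h1
  exact left_eq_add.1 h1

theorem IsDer.alg (h : Q.IsDer e) (c : ℂ) : e (algebraMap ℂ W c) = 0 := by
  rw [Algebra.algebraMap_eq_smul_one, map_smul, h.one, smul_zero]

end WD

namespace Rp

variable {Q : WD I n y W} {B : Type} [CommRing B] [Algebra ℂ B] {E : Type} [Ring E] [Algebra ℂ E]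
variable (R : Rp Q B E)

/-- The operators `X` over an odd derivation `e`. -/
structure IsDer (e : W →ₗ[ℂ] W) (X : E) : Prop where
  der : Q.IsDer e
  lw : ∀ w, X * R.lw w = R.lw (e w) + R.lw (Q.s w) * X
  ro : ∀ b, X * R.ro b = R.ro b * X
  r1 : ∀ b, X * R.r1 (Om.dd b) = -(R.r1 (Om.dd b) * X)

variable {R} {e : W →ₗ[ℂ] W} {X : E}

theorem IsDer.ro_mul (h : R.IsDer e X) {U : Matrix I I B} {M : Matrix I I E} {c : E}
    (hM : ∀ k l, X * M k l = c * (M k l * X)) (hc : ∀ b, c * R.ro b = R.ro b * c) (i j : I) :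
    X * (R.roM U * M) i j = c * ((R.roM U * M) i j * X) := by
  rw [Matrix.mul_apply, Finset.mul_sum, Finset.sum_mul, Finset.mul_sum]
  refine Finset.sum_congr rfl fun a _ => ?_
  rw [roM_apply, ← mul_assoc, h.ro, mul_assoc, hM, ← mul_assoc, ← hc, mul_assoc, mul_assoc]

theorem IsDer.mul_ro (h : R.IsDer e X) {U : Matrix I I B} {M : Matrix I I E} {c : E}
    (hM : ∀ k l, X * M k l = c * (M k l * X)) (i j : I) :
    X * (M * R.roM U) i j = c * ((M * R.roM U) i j * X) := by
  rw [Matrix.mul_apply, Finset.mul_sum, Finset.sum_mul, Finset.mul_sum]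
  refine Finset.sum_congr rfl fun a _ => ?_
  rw [roM_apply, ← mul_assoc, hM, mul_assoc, mul_assoc, h.ro, mul_assoc]

theorem IsDer.aT (h : R.IsDer e X) (U U' : Matrix I I B) (i j : I) :
    X * R.aT U U' i j = -(R.aT U U' i j * X) := by
  have h0 : ∀ b, (-1 : E) * R.ro b = R.ro b * (-1 : E) := fun b => by
    rw [neg_one_mul, mul_neg_one]
  have h1 : ∀ k l, X * R.lwM Q.th k l = (-1 : E) * (R.lwM Q.th k l * X) := fun k l => by
    rw [lwM_apply, h.lw, h.der.th, map_zero, zero_add, Q.sth, map_neg, neg_mul, neg_one_mul]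
  have h2 : ∀ k l, X * R.deM U k l = (-1 : E) * (R.deM U k l * X) := fun k l => by
    rw [deM_apply, h.r1, neg_one_mul]
  rw [Rp.aT, Matrix.add_apply, mul_add, add_mul, neg_add]
  congr 1
  · rw [h.mul_ro (h.ro_mul h1 h0) i j, neg_one_mul]
  · rw [h.ro_mul h2 h0 i j, neg_one_mul]

theorem IsDer.aF (h : R.IsDer e X) (U U' : Matrix I I B) (i j : I) :
    X * R.aF U U' i j = R.aF U U' i j * X := by
  have h0 : ∀ b, (1 : E) * R.ro b = R.ro b * (1 : E) := fun b => by
    rw [one_mul, mul_one]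
  have h1 : ∀ k l, X * R.lwM Q.Fm k l = (1 : E) * (R.lwM Q.Fm k l * X) := fun k l => by
    rw [lwM_apply, Q.Fm_apply, h.lw, h.der.F, map_zero, zero_add, Q.sP, one_mul]
  rw [Rp.aF, h.mul_ro (h.ro_mul h1 h0) i j, one_mul]

/-- **The gauge transformations commute with the odd derivations `e`.** -/
theorem IsDer.aU (h : R.IsDer e X) (U U' : Matrix I I B) (w : W) :
    X * R.aU U U' w = R.aU U U' (e w) + R.aU U U' (Q.s w) * X := by
  induction w using Q.ind with
  | h1 i j =>
    rw [Q.sth, map_neg, neg_mul, aU_th, h.der.th, map_zero, zero_add]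
    exact h.aT U U' i j
  | h2 i =>
    obtain ⟨c, hc⟩ := h.der.xi i
    rw [Q.sxi, map_neg, neg_mul, aU_xi, h.lw, hc, AlgHom.commutes, AlgHom.commutes, Q.sxi,
      map_neg, neg_mul]
  | h3 i j =>
    rw [Q.sP, aU_F, h.der.F, map_zero, zero_add]
    exact h.aF U U' i j
  | hc c =>
    rw [h.der.alg, map_zero, zero_add, AlgHom.commutes, AlgHom.commutes, AlgHom.commutes]
    exact (Algebra.commutes c _).symm
  | ha a b ha hb =>
    rw [map_add, map_add, map_add, map_add, map_add, mul_add, add_mul, ha, hb]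
    abel
  | hm a b ha hb =>
    have h3 : R.aU U U' (e (a * b)) = R.aU U U' (e a) * R.aU U U' b +
        R.aU U U' (Q.s a) * R.aU U U' (e b) := by
      rw [h.der.mul, map_add, map_mul, map_mul]
    have h4 : R.aU U U' (Q.s (a * b)) = R.aU U U' (Q.s a) * R.aU U U' (Q.s b) := by
      rw [map_mul, map_mul]
    rw [map_mul, h3, h4, ← mul_assoc, ha, add_mul, mul_assoc (R.aU U U' (Q.s a)) X, hb, mul_add,
      mul_assoc (R.aU U U' (Q.s a)), add_assoc]

section Eval

variable {B : Type} [CommRing B] [Algebra ℂ B] {Z : Type} [AddCommGroup Z] [Module ℂ Z]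
  (R : Rp Q B (Module.End ℂ Z)) {C : Type} [CommRing C] [Algebra ℂ C] {N : Type}
  [AddCommGroup N] [Module ℂ N] [Module (Om ℂ C) N] [IsScalarTower ℂ (Om ℂ C) N]

/-- A linear map `L` which is linear over the evaluation `ε` of `W` and over the forms is linear
over the gauge transform `ε'` of `ε`. -/
theorem L_aU {L : Z →ₗ[ℂ] N} {c : B →ₐ[ℂ] C} {ε ε' : W →ₐ[ℂ] Om ℂ C} {U U' : Matrix I I B}
    (hlw : ∀ w z, L (R.lw w z) = ε w • L z)
    (hro : ∀ b z, L (R.ro b z) = algebraMap C (Om ℂ C) (c b) • L z)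
    (hr1 : ∀ b z, L (R.r1 (Om.dd b) z) = (Om.dd (c b) : Om ℂ C) • L z)
    (hth : ∀ i j, ε' (Q.th i j) = ∑ k, ∑ l, (c (U' i k) * c (U l j)) • ε (Q.th k l) +
      ∑ k, c (U' i k) • (Om.dd (c (U k j)) : Om ℂ C))
    (hxi : ∀ i, ε' (Q.xi i) = ε (Q.xi i))
    (hF : ∀ i j, ε' (Q.P (MvPolynomial.X (i, j))) =
      ∑ k, ∑ l, (c (U' i k) * c (U l j)) • ε (Q.P (MvPolynomial.X (k, l))))
    (w : W) (z : Z) : L (R.aU U U' w z) = ε' w • L z := by
  have key : ∀ (M : Matrix I I W) (i j : I) (z : Z),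
      L ((R.roM U' * R.lwM M * R.roM U) i j z) =
        (∑ k, ∑ l, (c (U' i k) * c (U l j)) • ε (M k l)) • L z := by
    intro M i j z
    rw [Matrix.mul_apply, LinearMap.sum_apply, map_sum, Finset.sum_comm, Finset.sum_smul]
    refine Finset.sum_congr rfl fun l _ => ?_
    rw [Module.End.mul_apply, Matrix.mul_apply, LinearMap.sum_apply, map_sum, Finset.sum_smul]
    refine Finset.sum_congr rfl fun k _ => ?_
    rw [Module.End.mul_apply, roM_apply, roM_apply, lwM_apply, hro, hlw, hro, smul_smul,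
      smul_smul, mul_assoc, ← Algebra.commutes, ← mul_assoc, ← map_mul, ← Algebra.smul_def]
  revert z
  induction w using Q.ind with
  | h1 i j =>
    intro z
    rw [aU_th, Rp.aT, Matrix.add_apply, LinearMap.add_apply, map_add, key, hth, add_smul]
    congr 1
    rw [Matrix.mul_apply, LinearMap.sum_apply, map_sum, Finset.sum_smul]
    refine Finset.sum_congr rfl fun k _ => ?_
    rw [Module.End.mul_apply, roM_apply, deM_apply, hro, hr1, smul_smul, ← Algebra.smul_def]
  | h2 i => intro z; rw [aU_xi, hlw, hxi]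
  | h3 i j => intro z; rw [aU_F, Rp.aF, key, hF]; rfl
  | hc a =>
    intro z
    rw [AlgHom.commutes, AlgHom.commutes, Module.algebraMap_end_apply, map_smul,
      algebraMap_smul]
  | ha a b ha hb => intro z; rw [map_add, map_add, LinearMap.add_apply, map_add, ha, hb, add_smul]
  | hm a b ha hb => intro z; rw [map_mul, map_mul, Module.End.mul_apply, ha, hb, mul_smul]

end Eval

end Rp

section Gder

variable {Q : WD I n y W}
variable {B : Type} [CommRing B] [Algebra ℂ B] {B' : Type} [CommRing B'] [Algebra ℂ B']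
variable {M : OmM B} {M' : OmM B'} {t : M.M.V →ₗ[ℂ] M'.M.V} {U U' : Matrix I I B'}

/-- The operator `e ⊗ 1`. -/
theorem isDer_lop {e : W →ₗ[ℂ] W} (h : Q.IsDer e) (M : OmM B) :
    (rM Q M).IsDer e (TensorProduct.map e (LinearMap.id : M.M.V →ₗ[ℂ] M.M.V)) where
  der := h
  lw w := hom_ext fun a x => by
    change e (w * a) ⊗ₜ[ℂ] x = (e w * a) ⊗ₜ[ℂ] x + (Q.s w * e a) ⊗ₜ[ℂ] x
    rw [h.mul, add_tmul]
  ro b := hom_ext fun a x => rfl
  r1 b := hom_ext fun a x => by
    change e (Q.s a) ⊗ₜ[ℂ] ((Om.dd b : Om ℂ B) • x) = -(Q.s (e a) ⊗ₜ[ℂ] ((Om.dd b : Om ℂ B) • x))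
    rw [h.sg, neg_tmul]

/-- **`G` commutes with `e ⊗ 1`.** -/
theorem G_der {e : W →ₗ[ℂ] W} (h : Q.IsDer e) (z : W ⊗[ℂ] M.M.V) :
    TensorProduct.map e LinearMap.id (G Q M M' t U U' z) =
      G Q M M' t U U' (TensorProduct.map e LinearMap.id z) := by
  induction z using TensorProduct.induction_on with
  | zero => rw [map_zero, map_zero, map_zero, map_zero]
  | tmul w x =>
    have h1 := congrArg (fun T : Module.End ℂ (W ⊗[ℂ] M'.M.V) => T (1 ⊗ₜ t x))
      ((isDer_lop h M').aU U U' w)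
    have h2 : TensorProduct.map e (LinearMap.id : M'.M.V →ₗ[ℂ] M'.M.V) ((1 : W) ⊗ₜ[ℂ] t x) = 0 := by
      rw [TensorProduct.map_tmul, h.one, zero_tmul]
    rw [TensorProduct.map_tmul, LinearMap.id_apply, G_tmul, G_tmul]
    refine h1.trans ?_
    rw [LinearMap.add_apply, Module.End.mul_apply, h2, map_zero, add_zero]
  | add a b ha hb => rw [map_add, map_add, map_add, map_add, ha, hb]

end Gder

end

end Vale.Agent.P286.H374.Gau
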